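import Mathlib

namespace Vale.Agent.Results.P160.RowPairLower

open Finset Classical

/-- The sample space: one sign for every unordered pair `{i, j}` of indices (`i = j` allowed),
i.e. for every entry on or above the diagonal. -/
abbrev Omega (ι : Type) := Sym2 ι → ℤˣ

/-- The real symmetric sign matrix determined by a sample point. -/
def mat {ι : Type} (ω : Omega ι) : Matrix ι ι ℝ := fun i j => (((ω s(i, j) : ℤˣ) : ℤ) : ℝ)

/-- `q n` is the probability that the `n × n` symmetric sign matrix is singular, the signs on and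
above the diagonal being independent and uniform (normalised counting measure on `Omega`). -/
noncomputable def q (n : ℕ) : ℝ :=
  ((Finset.univ.filter (fun ω : Omega (Fin n) => (mat ω).det = 0)).card : ℝ) /
    (Fintype.card (Omega (Fin n)) : ℝ)

section general

variable {ι : Type} [DecidableEq ι]

/-- row `b` equals `s` times row `a` -/
def Ev (a b : ι) (s : ℤˣ) (ω : Omega ι) : Prop := ∀ k, ω s(b, k) = s * ω s(a, k)

def Rel (a b : ι) (ω : Omega ι) : Prop := ∃ s, Ev a b s ω

def Dist (ω : Omega ι) : Prop := ∀ a b, a ≠ b → ¬ Rel a b ω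

def restr (b : ι) (ω : Omega ι) : Omega {x // x ≠ b} := fun z => ω (z.map Subtype.val)

noncomputable def eps (b : ι) (s : ℤˣ) (x : ι) : ℤˣ := if x = b then s else 1

noncomputable def phi (a b : ι) (hab : a ≠ b) (x : ι) : {x // x ≠ b} :=
  if h : x = b then ⟨a, hab⟩ else ⟨x, h⟩

noncomputable def ext (a b : ι) (hab : a ≠ b) (s : ℤˣ) (g : Omega {x // x ≠ b}) : Omega ι :=
  Sym2.lift ⟨fun x y => eps b s x * eps b s y * g s(phi a b hab x, phi a b hab y), by
    intro x y
    show eps b s x * eps b s y * g s(phi a b hab x, phi a b hab y) =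
      eps b s y * eps b s x * g s(phi a b hab y, phi a b hab x)
    rw [Sym2.eq_swap, mul_comm (eps b s x)]⟩

theorem ext_mk (a b : ι) (hab : a ≠ b) (s : ℤˣ) (g : Omega {x // x ≠ b}) (x y : ι) :
    ext a b hab s g s(x, y) = eps b s x * eps b s y * g s(phi a b hab x, phi a b hab y) := rfl

theorem units_sq (s : ℤˣ) : s * s = 1 := Int.units_mul_self s

omit [DecidableEq ι] in
theorem Rel.symm {a b : ι} {ω : Omega ι} (h : Rel a b ω) : Rel b a ω := by
  obtain ⟨s, hs⟩ := h
  refine ⟨s, fun k => ?_⟩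
  rw [hs k, ← mul_assoc, units_sq, one_mul]

theorem ext_ev (a b : ι) (hab : a ≠ b) (s : ℤˣ) (g : Omega {x // x ≠ b}) :
    Ev a b s (ext a b hab s g) := by
  intro k
  rw [ext_mk, ext_mk]
  have h1 : eps b s b = s := by simp [eps]
  have h2 : eps b s a = 1 := by simp [eps, hab]
  have h3 : phi a b hab b = ⟨a, hab⟩ := by simp [phi]
  have h4 : phi a b hab a = ⟨a, hab⟩ := by simp [phi, hab]
  rw [h1, h2, h3, h4, one_mul, mul_assoc]

theorem ext_val (a b : ι) (hab : a ≠ b) (s : ℤˣ) (g : Omega {x // x ≠ b})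
    (x y : {x // x ≠ b}) : ext a b hab s g s(x.1, y.1) = g s(x, y) := by
  rw [ext_mk]
  have h1 : eps b s x.1 = 1 := by simp [eps, x.2]
  have h2 : eps b s y.1 = 1 := by simp [eps, y.2]
  have h3 : phi a b hab x.1 = x := by simp [phi, x.2]
  have h4 : phi a b hab y.1 = y := by simp [phi, y.2]
  rw [h1, h2, h3, h4, one_mul, one_mul]

theorem restr_ext (a b : ι) (hab : a ≠ b) (s : ℤˣ) (g : Omega {x // x ≠ b}) :
    restr b (ext a b hab s g) = g := by
  funext z
  induction z using Sym2.ind with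
  | _ x y => exact ext_val a b hab s g x y

/-- a sample point in `Ev a b s` is determined by its restriction -/
theorem restr_inj (a b : ι) (hab : a ≠ b) (s : ℤˣ) (ω ω' : Omega ι) (h : Ev a b s ω)
    (h' : Ev a b s ω') (hr : restr b ω = restr b ω') : ω = ω' := by
  have key : ∀ x y : ι, x ≠ b → y ≠ b → ω s(x, y) = ω' s(x, y) := by
    intro x y hx hy
    exact congrFun hr s((⟨x, hx⟩ : {x // x ≠ b}), (⟨y, hy⟩ : {x // x ≠ b}))
  have key2 : ∀ y : ι, y ≠ b → ω s(b, y) = ω' s(b, y) := by
    intro y hy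
    rw [h y, h' y, key a y hab hy]
  have key3 : ω s(b, b) = ω' s(b, b) := by
    rw [h b, h' b, Sym2.eq_swap, key2 a hab]
  funext z
  induction z using Sym2.ind with
  | _ x y =>
    by_cases hx : x = b
    · subst hx
      by_cases hy : y = x
      · subst hy; exact key3
      · exact key2 y hy
    · by_cases hy : y = b
      · subst hy
        rw [Sym2.eq_swap]
        exact key2 x hx
      · exact key x y hx hy

/-- in an extension of a point with pairwise distinct rows, the only related pair is `{a, b}` -/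
theorem ext_unique (a b : ι) (hab : a ≠ b) (s : ℤˣ) (g : Omega {x // x ≠ b}) (hg : Dist g)
    (x y : ι) (hxy : x ≠ y) (hR : Rel x y (ext a b hab s g)) :
    (x = a ∧ y = b) ∨ (x = b ∧ y = a) := by
  have hE := ext_ev a b hab s g
  -- transfer of a relation between two indices different from `b`
  have tr : ∀ u v : ι, ∀ (hu : u ≠ b) (hv : v ≠ b), u ≠ v → ¬ Rel u v (ext a b hab s g) := by
    intro u v hu hv huv hrel
    obtain ⟨t, ht⟩ := hrel
    refine hg ⟨u, hu⟩ ⟨v, hv⟩ (fun h => huv (congrArg Subtype.val h)) ⟨t, fun k => ?_⟩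
    have := ht k.1
    rw [ext_val a b hab s g ⟨v, hv⟩ k, ext_val a b hab s g ⟨u, hu⟩ k] at this
    exact this
  by_cases hx : x = b
  · right
    refine ⟨hx, ?_⟩
    subst hx
    by_contra hya
    obtain ⟨t, ht⟩ := hR
    refine tr a y hab (fun h => hxy h.symm) (fun h => hya h.symm) ⟨t * s, fun k => ?_⟩
    rw [ht k, hE k, mul_assoc]
  · by_cases hy : y = b
    · left
      refine ⟨?_, hy⟩
      by_contra hxa
      obtain ⟨t, ht⟩ := hR
      refine tr x a hx hab hxa ⟨s * t, fun k => ?_⟩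
      have h1 := ht k
      rw [hy, hE k] at h1
      calc ext a b hab s g s(a, k) = s * (s * ext a b hab s g s(a, k)) := by
            rw [← mul_assoc, units_sq, one_mul]
        _ = s * t * ext a b hab s g s(x, k) := by rw [h1, mul_assoc]
    · exact absurd hR (tr x y hx hy hxy)

/-- number of sample points for `m` indices -/
def NN (m : ℕ) : ℕ := 2 ^ ((m + 1).choose 2)

theorem NN_succ (m : ℕ) : NN (m + 1) = NN m * 2 ^ (m + 1) := by
  unfold NN
  rw [← pow_add]
  congr 1
  rw [Nat.choose_succ_succ (m + 1) 1, Nat.choose_one_right]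
  ring

variable [Fintype ι]

theorem card_omega : Fintype.card (Omega ι) = NN (Fintype.card ι) := by
  unfold NN
  rw [Fintype.card_fun, Sym2.card, Fintype.card_units_int]

theorem card_sub (b : ι) : Fintype.card {x // x ≠ b} = Fintype.card ι - 1 := by
  simp [Fintype.card_subtype_compl]

theorem card_ev (a b : ι) (hab : a ≠ b) (s : ℤˣ) :
    (univ.filter (fun ω : Omega ι => Ev a b s ω)).card ≤ NN (Fintype.card ι - 1) := by
  rw [← card_sub b, ← card_omega, ← Finset.card_univ]
  refine Finset.card_le_card_of_injOn (restr b) (fun _ _ => Finset.mem_coe.mpr (Finset.mem_univ _)) ?_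
  intro ω hω ω' hω' h
  simp only [Finset.coe_filter, Finset.mem_univ, true_and, Set.mem_ofPred_eq] at hω hω'
  exact restr_inj a b hab s ω ω' hω hω' h

theorem card_rel (a b : ι) (hab : a ≠ b) :
    (univ.filter (fun ω : Omega ι => Rel a b ω)).card ≤ 2 * NN (Fintype.card ι - 1) := by
  have hsub : univ.filter (fun ω : Omega ι => Rel a b ω) ⊆
      (univ : Finset ℤˣ).biUnion (fun s => univ.filter (fun ω : Omega ι => Ev a b s ω)) := by
    intro ω hω
    simp only [Finset.mem_filter, Finset.mem_univ, true_and] at hω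
    obtain ⟨s, hs⟩ := hω
    simp only [Finset.mem_biUnion, Finset.mem_filter, Finset.mem_univ, true_and]
    exact ⟨s, hs⟩
  calc (univ.filter (fun ω : Omega ι => Rel a b ω)).card
      ≤ ((univ : Finset ℤˣ).biUnion
          (fun s => univ.filter (fun ω : Omega ι => Ev a b s ω))).card := Finset.card_le_card hsub
    _ ≤ ∑ s : ℤˣ, (univ.filter (fun ω : Omega ι => Ev a b s ω)).card := Finset.card_biUnion_le
    _ ≤ ∑ _s : ℤˣ, NN (Fintype.card ι - 1) := Finset.sum_le_sum (fun s _ => card_ev a b hab s)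
    _ = 2 * NN (Fintype.card ι - 1) := by
        rw [Finset.sum_const, Finset.card_univ, Fintype.card_units_int, smul_eq_mul]

/-- double counting -/
theorem sum_swap (P : ι × ι → Omega ι → Prop) :
    ∑ p ∈ (univ : Finset ι).offDiag, (univ.filter (fun ω : Omega ι => P p ω)).card =
      ∑ ω : Omega ι, ((univ : Finset ι).offDiag.filter (fun p => P p ω)).card := by
  simp only [Finset.card_filter]
  exact Finset.sum_comm

theorem card_notDist :
    (univ.filter (fun ω : Omega ι => ¬ Dist ω)).card ≤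
      Fintype.card ι * (Fintype.card ι - 1) * NN (Fintype.card ι - 1) := by
  have h1 : 2 * (univ.filter (fun ω : Omega ι => ¬ Dist ω)).card ≤
      ∑ p ∈ (univ : Finset ι).offDiag, (univ.filter (fun ω : Omega ι => Rel p.1 p.2 ω)).card := by
    rw [sum_swap (fun p ω => Rel p.1 p.2 ω)]
    calc 2 * (univ.filter (fun ω : Omega ι => ¬ Dist ω)).card
        = ∑ _ω ∈ univ.filter (fun ω : Omega ι => ¬ Dist ω), 2 := by
          rw [Finset.sum_const, smul_eq_mul, mul_comm]
      _ ≤ ∑ ω ∈ univ.filter (fun ω : Omega ι => ¬ Dist ω),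
            ((univ : Finset ι).offDiag.filter (fun p => Rel p.1 p.2 ω)).card := by
          refine Finset.sum_le_sum (fun ω hω => ?_)
          simp only [Finset.mem_filter, Finset.mem_univ, true_and, Dist, not_forall,
            not_not] at hω
          obtain ⟨a, b, hab, hR⟩ := hω
          have hsub : ({(a, b), (b, a)} : Finset (ι × ι)) ⊆
              (univ : Finset ι).offDiag.filter (fun p => Rel p.1 p.2 ω) := by
            intro p hp
            simp only [Finset.mem_insert, Finset.mem_singleton] at hp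
            rcases hp with rfl | rfl
            · simp [hab, hR]
            · simp [hab.symm, hR.symm]
          have hc : ({(a, b), (b, a)} : Finset (ι × ι)).card = 2 := by
            rw [Finset.card_pair]
            intro h
            exact hab (congrArg Prod.fst h)
          rw [← hc]
          exact Finset.card_le_card hsub
      _ ≤ ∑ ω : Omega ι, ((univ : Finset ι).offDiag.filter (fun p => Rel p.1 p.2 ω)).card :=
          Finset.sum_le_sum_of_subset (Finset.filter_subset _ _)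
  have h2 : ∑ p ∈ (univ : Finset ι).offDiag,
      (univ.filter (fun ω : Omega ι => Rel p.1 p.2 ω)).card ≤
      ∑ _p ∈ (univ : Finset ι).offDiag, 2 * NN (Fintype.card ι - 1) := by
    refine Finset.sum_le_sum (fun p hp => ?_)
    rw [Finset.mem_offDiag] at hp
    exact card_rel p.1 p.2 hp.2.2
  rw [Finset.sum_const, Finset.offDiag_card, Finset.card_univ, smul_eq_mul] at h2
  have h3 : Fintype.card ι * Fintype.card ι - Fintype.card ι =
      Fintype.card ι * (Fintype.card ι - 1) := by
    rw [Nat.mul_sub_one]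
  rw [h3] at h2
  have := h1.trans h2
  nlinarith

/-- `{a, b}` is the only pair of rows equal up to sign -/
def Only (p : ι × ι) (ω : Omega ι) : Prop :=
  Rel p.1 p.2 ω ∧ ∀ x y, x ≠ y → Rel x y ω → (x = p.1 ∧ y = p.2) ∨ (x = p.2 ∧ y = p.1)

theorem card_only (a b : ι) (hab : a ≠ b) :
    2 * (univ.filter (fun g : Omega {x // x ≠ b} => Dist g)).card ≤
      (univ.filter (fun ω : Omega ι => Only (a, b) ω)).card := by
  have h : ((univ : Finset ℤˣ) ×ˢ (univ.filter (fun g : Omega {x // x ≠ b} => Dist g))).card ≤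
      (univ.filter (fun ω : Omega ι => Only (a, b) ω)).card := by
    refine Finset.card_le_card_of_injOn (fun sg => ext a b hab sg.1 sg.2) ?_ ?_
    · intro sg hsg
      simp only [Finset.coe_product, Finset.coe_univ, Finset.coe_filter, Finset.mem_univ, true_and,
        Set.mem_prod, Set.mem_univ, Set.mem_ofPred_eq] at hsg
      simp only [Finset.coe_filter, Finset.mem_univ, true_and, Set.mem_ofPred_eq]
      exact ⟨⟨sg.1, ext_ev a b hab sg.1 sg.2⟩,
        fun x y hxy hR => ext_unique a b hab sg.1 sg.2 hsg x y hxy hR⟩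
    · intro sg _ sg' _ h
      simp only at h
      have hg : sg.2 = sg'.2 := by
        rw [← restr_ext a b hab sg.1 sg.2, ← restr_ext a b hab sg'.1 sg'.2, h]
      have hs : sg.1 = sg'.1 := by
        have h1 := ext_ev a b hab sg.1 sg.2 a
        have h2 := ext_ev a b hab sg'.1 sg'.2 a
        rw [h, h2] at h1
        exact (mul_right_cancel h1).symm
      exact Prod.ext hs hg
  rw [Finset.card_product, Finset.card_univ, Fintype.card_units_int] at h
  exact h

theorem sum_only_le :
    ∑ p ∈ (univ : Finset ι).offDiag, (univ.filter (fun ω : Omega ι => Only p ω)).card ≤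
      2 * (univ.filter (fun ω : Omega ι => ¬ Dist ω)).card := by
  rw [sum_swap (fun p ω => Only p ω)]
  have hz : ∀ ω : Omega ι, ω ∉ univ.filter (fun ω : Omega ι => ¬ Dist ω) →
      ((univ : Finset ι).offDiag.filter (fun p => Only p ω)).card = 0 := by
    intro ω hω
    simp only [Finset.mem_filter, Finset.mem_univ, true_and, not_not] at hω
    rw [Finset.card_eq_zero, Finset.filter_eq_empty_iff]
    intro p hp hO
    rw [Finset.mem_offDiag] at hp
    exact hω p.1 p.2 hp.2.2 hO.1
  rw [← Finset.sum_subset (Finset.subset_univ (univ.filter (fun ω : Omega ι => ¬ Dist ω)))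
    (fun ω _ h => hz ω h)]
  calc ∑ ω ∈ univ.filter (fun ω : Omega ι => ¬ Dist ω),
        ((univ : Finset ι).offDiag.filter (fun p => Only p ω)).card
      ≤ ∑ _ω ∈ univ.filter (fun ω : Omega ι => ¬ Dist ω), 2 := by
        refine Finset.sum_le_sum (fun ω _ => ?_)
        by_cases hne : ((univ : Finset ι).offDiag.filter (fun p => Only p ω)).Nonempty
        · obtain ⟨p0, hp0⟩ := hne
          rw [Finset.mem_filter, Finset.mem_offDiag] at hp0
          have hsub : (univ : Finset ι).offDiag.filter (fun p => Only p ω) ⊆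
              {p0, (p0.2, p0.1)} := by
            intro p hp
            rw [Finset.mem_filter, Finset.mem_offDiag] at hp
            rcases hp0.2.2 p.1 p.2 hp.1.2.2 hp.2.1 with ⟨h1, h2⟩ | ⟨h1, h2⟩
            · exact Finset.mem_insert.mpr (Or.inl (Prod.ext h1 h2))
            · exact Finset.mem_insert.mpr (Or.inr (Finset.mem_singleton.mpr (Prod.ext h1 h2)))
          exact (Finset.card_le_card hsub).trans Finset.card_le_two
        · rw [Finset.not_nonempty_iff_eq_empty] at hne
          rw [hne]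
          simp
    _ = 2 * (univ.filter (fun ω : Omega ι => ¬ Dist ω)).card := by
        rw [Finset.sum_const, smul_eq_mul, mul_comm]

/-- two rows equal up to sign force singularity -/
theorem det_zero_of_notDist (ω : Omega ι) (h : ¬ Dist ω) : (mat ω).det = 0 := by
  simp only [Dist, not_forall, not_not] at h
  obtain ⟨a, b, hab, s, hs⟩ := h
  rw [← Matrix.exists_mulVec_eq_zero_iff]
  refine ⟨Pi.single b 1 - Pi.single a (((s : ℤˣ) : ℤ) : ℝ), ?_, ?_⟩
  · intro h0
    have := congrFun h0 b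
    simp [hab.symm] at this
  · funext k
    rw [Matrix.mulVec_sub, Matrix.mulVec_single, Matrix.mulVec_single]
    simp only [Pi.sub_apply, Pi.zero_apply, Matrix.col_apply, Pi.smul_apply, MulOpposite.smul_eq_mul_unop, MulOpposite.unop_op, mat]
    have h1 : ω s(k, b) = s * ω s(k, a) := by
      rw [Sym2.eq_swap, hs k, Sym2.eq_swap]
    rw [h1]
    push_cast
    ring

theorem card_dist_ge :
    NN (Fintype.card ι) ≤ (univ.filter (fun ω : Omega ι => Dist ω)).card +
      Fintype.card ι * (Fintype.card ι - 1) * NN (Fintype.card ι - 1) := by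
  have h := Finset.card_filter_add_card_filter_not (s := (univ : Finset (Omega ι)))
    (fun ω : Omega ι => Dist ω)
  rw [Finset.card_univ, card_omega] at h
  have h2 := card_notDist (ι := ι)
  omega

theorem card_notDist_ge :
    Fintype.card ι * (Fintype.card ι - 1) * NN (Fintype.card ι - 1) ≤
      (univ.filter (fun ω : Omega ι => ¬ Dist ω)).card +
        Fintype.card ι * (Fintype.card ι - 1) *
          ((Fintype.card ι - 1) * (Fintype.card ι - 1 - 1) * NN (Fintype.card ι - 1 - 1)) := by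
  have h1 := sum_only_le (ι := ι)
  have h2 : ∑ _p ∈ (univ : Finset ι).offDiag, 2 * (NN (Fintype.card ι - 1) -
      (Fintype.card ι - 1) * (Fintype.card ι - 1 - 1) * NN (Fintype.card ι - 1 - 1)) ≤
      ∑ p ∈ (univ : Finset ι).offDiag, (univ.filter (fun ω : Omega ι => Only p ω)).card := by
    refine Finset.sum_le_sum (fun p hp => ?_)
    rw [Finset.mem_offDiag] at hp
    have h3 := card_only p.1 p.2 hp.2.2
    have h4 := card_dist_ge (ι := {x // x ≠ p.2})
    rw [card_sub] at h4
    refine le_trans ?_ h3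
    omega
  rw [Finset.sum_const, Finset.offDiag_card, Finset.card_univ, smul_eq_mul] at h2
  have h3 : Fintype.card ι * Fintype.card ι - Fintype.card ι =
      Fintype.card ι * (Fintype.card ι - 1) := by
    rw [Nat.mul_sub_one]
  rw [h3] at h2
  have h5 := h2.trans h1
  set c := Fintype.card ι * (Fintype.card ι - 1) with hc
  set A := NN (Fintype.card ι - 1) with hA
  set B := (Fintype.card ι - 1) * (Fintype.card ι - 1 - 1) * NN (Fintype.card ι - 1 - 1) with hB
  have h6 : c * (A - B) ≤ (univ.filter (fun ω : Omega ι => ¬ Dist ω)).card := by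
    have : c * (2 * (A - B)) = 2 * (c * (A - B)) := by ring
    omega
  have h7 : c * A ≤ c * (A - B) + c * B := by
    rw [← Nat.mul_add]
    exact Nat.mul_le_mul_left c (by omega)
  omega

end general

/-- Lower bound `q_n ≥ n (n-1) 2^{-n} (1 - (n-1)(n-2) 2^{-(n-1)})` for all `n ≥ 2`. -/
theorem main (n : ℕ) (hn : 2 ≤ n) :
    (n : ℝ) * ((n : ℝ) - 1) / 2 ^ n * (1 - ((n : ℝ) - 1) * ((n : ℝ) - 2) / 2 ^ (n - 1)) ≤ q n := by
  obtain ⟨m, rfl⟩ : ∃ m, n = m + 2 := ⟨n - 2, by omega⟩
  have h1 := card_notDist_ge (ι := Fin (m + 2))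
  simp only [Fintype.card_fin] at h1
  have e1 : m + 2 - 1 = m + 1 := by omega
  have e2 : m + 1 - 1 = m := by omega
  rw [e1, e2] at h1
  have h2 : (univ.filter (fun ω : Omega (Fin (m + 2)) => ¬ Dist ω)).card ≤
      (univ.filter (fun ω : Omega (Fin (m + 2)) => (mat ω).det = 0)).card := by
    refine Finset.card_le_card (fun ω hω => ?_)
    simp only [Finset.mem_filter, Finset.mem_univ, true_and] at hω ⊢
    exact det_zero_of_notDist ω hω
  unfold q
  rw [card_omega, Fintype.card_fin, e1]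
  have hN2 : (NN (m + 2) : ℝ) = NN m * 2 ^ (m + 1) * 2 ^ (m + 2) := by
    rw [NN_succ (m + 1), NN_succ m]
    push_cast
    ring
  have hN1 : (NN (m + 1) : ℝ) = NN m * 2 ^ (m + 1) := by
    rw [NN_succ m]
    push_cast
    ring
  have hNpos : (0 : ℝ) < NN m := by
    unfold NN
    positivity
  have h3 : ((m + 2 : ℕ) : ℝ) * ((m + 1 : ℕ) : ℝ) * (NN (m + 1) : ℝ) ≤
      ((univ.filter (fun ω : Omega (Fin (m + 2)) => (mat ω).det = 0)).card : ℝ) +
        ((m + 2 : ℕ) : ℝ) * ((m + 1 : ℕ) : ℝ) * (((m + 1 : ℕ) : ℝ) * (m : ℝ) * (NN m : ℝ)) := by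
    have := h1.trans (Nat.add_le_add_right h2 _)
    exact_mod_cast this
  rw [hN2, le_div_iff₀ (by positivity)]
  rw [hN1] at h3
  push_cast at h3 ⊢
  have hp1 : (0 : ℝ) < 2 ^ (m + 1) := by positivity
  have hp2 : (0 : ℝ) < 2 ^ (m + 2) := by positivity
  have key : ((m : ℝ) + 2) * ((m : ℝ) + 2 - 1) / 2 ^ (m + 2) *
      (1 - ((m : ℝ) + 2 - 1) * ((m : ℝ) + 2 - 2) / 2 ^ (m + 1)) *
      ((NN m : ℝ) * 2 ^ (m + 1) * 2 ^ (m + 2)) =
      ((m : ℝ) + 2) * ((m : ℝ) + 1) * ((NN m : ℝ) * 2 ^ (m + 1)) -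
        ((m : ℝ) + 2) * ((m : ℝ) + 1) * (((m : ℝ) + 1) * (m : ℝ) * (NN m : ℝ)) := by
    field_simp
    ring
  rw [key]
  linarith

theorem asymp (ε : ℝ) (hε : 0 < ε) :
    ∃ N : ℕ, ∀ n : ℕ, N ≤ n → (1 - ε) * (n : ℝ) ^ 2 / 2 ^ n ≤ q n := by
  have t1 : Filter.Tendsto (fun n : ℕ => (n : ℝ) ^ 2 / 2 ^ n) Filter.atTop (nhds 0) :=
    tendsto_pow_const_div_const_pow_of_one_lt 2 (by norm_num)
  have e1 : ∀ᶠ n : ℕ in Filter.atTop, (n : ℝ) ^ 2 / 2 ^ n < ε / 4 :=
    t1.eventually (gt_mem_nhds (by positivity))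
  obtain ⟨N1, hN1⟩ := Filter.eventually_atTop.mp e1
  obtain ⟨N2, hN2⟩ := exists_nat_gt (2 / ε)
  refine ⟨max (max N1 N2) 2, fun n hn => ?_⟩
  have hn1 : N1 ≤ n := le_trans (le_trans (le_max_left _ _) (le_max_left _ _)) hn
  have hn2 : N2 ≤ n := le_trans (le_trans (le_max_right _ _) (le_max_left _ _)) hn
  have hn3 : 2 ≤ n := le_trans (le_max_right _ _) hn
  refine le_trans ?_ (main n hn3)
  have h1 := hN1 n hn1
  have hnR : (2 : ℝ) ≤ n := by exact_mod_cast hn3
  have h2 : 2 / ε < (n : ℝ) := lt_of_lt_of_le hN2 (by exact_mod_cast hn2)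
  have h2' : 2 < ε * (n : ℝ) := by
    rw [div_lt_iff₀ hε] at h2
    linarith
  have hp : (0 : ℝ) < 2 ^ n := by positivity
  have hpow : (2 : ℝ) ^ n = 2 * 2 ^ (n - 1) := by
    rw [← pow_succ']
    congr 1
    omega
  have hp1 : (0 : ℝ) < 2 ^ (n - 1) := by positivity
  -- the error term
  have h3 : ((n : ℝ) - 1) * ((n : ℝ) - 2) / 2 ^ (n - 1) ≤ ε / 2 := by
    have : ((n : ℝ) - 1) * ((n : ℝ) - 2) / 2 ^ (n - 1) ≤ 2 * ((n : ℝ) ^ 2 / 2 ^ n) := by
      rw [hpow, div_le_iff₀ hp1]
      have : 2 * ((n : ℝ) ^ 2 / (2 * 2 ^ (n - 1))) * 2 ^ (n - 1) = (n : ℝ) ^ 2 := by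
        field_simp
      rw [this]
      nlinarith
    linarith
  have h4 : (1 - ε) * (n : ℝ) ^ 2 ≤
      (n : ℝ) * ((n : ℝ) - 1) * (1 - ((n : ℝ) - 1) * ((n : ℝ) - 2) / 2 ^ (n - 1)) := by
    have h5 : (n : ℝ) * ((n : ℝ) - 1) * (1 - ε / 2) ≤
        (n : ℝ) * ((n : ℝ) - 1) * (1 - ((n : ℝ) - 1) * ((n : ℝ) - 2) / 2 ^ (n - 1)) := by
      apply mul_le_mul_of_nonneg_left (by linarith)
      nlinarith
    refine le_trans ?_ h5
    nlinarith
  calc (1 - ε) * (n : ℝ) ^ 2 / 2 ^ n
      ≤ (n : ℝ) * ((n : ℝ) - 1) * (1 - ((n : ℝ) - 1) * ((n : ℝ) - 2) / 2 ^ (n - 1)) / 2 ^ n :=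
        div_le_div_of_nonneg_right h4 hp.le
    _ = (n : ℝ) * ((n : ℝ) - 1) / 2 ^ n * (1 - ((n : ℝ) - 1) * ((n : ℝ) - 2) / 2 ^ (n - 1)) := by
        ring

/-- (1) `q_n ≥ n (n-1) 2^{-n} (1 - (n-1)(n-2) 2^{-(n-1)})` for all `n ≥ 2`;
(2) consequently `q_n ≥ (1 - ε) n^2 2^{-n}` for all large `n`, for every `ε > 0`. -/
theorem result :
    (∀ n : ℕ, 2 ≤ n →
      (n : ℝ) * ((n : ℝ) - 1) / 2 ^ n * (1 - ((n : ℝ) - 1) * ((n : ℝ) - 2) / 2 ^ (n - 1)) ≤ q n) ∧
    (∀ ε : ℝ, 0 < ε → ∃ N : ℕ, ∀ n : ℕ, N ≤ n → (1 - ε) * (n : ℝ) ^ 2 / 2 ^ n ≤ q n) :=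
  ⟨main, asymp⟩

end Vale.Agent.Results.P160.RowPairLower
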